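import Vale.Agent.P154q4.TM

namespace Vale.Agent.P154q4.D4

noncomputable section

open Vale.Agent.P154q4.TMC MT in
/-- Data of one sign branch. -/
def DInn : Data :=
  ⟨false, false, 42,
   (p (p (p (p (p nil nil) nil) nil) (e (p (p (p (p nil nil) (e (p (p nil (t nil nil)) nil) nil)) (t (p (p (p nil nil) (t (p nil nil) nil)) nil) nil)) nil) nil)) (t (p (p (p (p (p nil nil) nil) nil) (t (p (p (p nil nil) (t (p (p nil (t nil nil)) nil) nil)) nil) nil)) nil) nil)),
   (p (p (p nil nil) (e (p (p (e nil nil) (t (p nil nil) nil)) nil) nil)) (t (p (p (p nil nil) (t (p (t nil nil) nil) nil)) nil) nil)),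
  [[Int.ofNat 398131200000, Int.ofNat 126959616000, Int.negSucc 185794559999, Int.ofNat 0, Int.ofNat 0, Int.ofNat 0, Int.negSucc 1911029759999, Int.ofNat 0, Int.ofNat 0, Int.ofNat 0, Int.ofNat 0, Int.ofNat 0, Int.ofNat 0, Int.ofNat 0, Int.ofNat 0, Int.ofNat 0, Int.ofNat 0, Int.ofNat 0, Int.ofNat 0, Int.ofNat 0, Int.ofNat 0, Int.ofNat 1167851520000, Int.negSucc 3291217919999, Int.ofNat 0, Int.ofNat 0, Int.ofNat 0, Int.ofNat 0, Int.ofNat 0, Int.ofNat 0, Int.ofNat 0, Int.ofNat 0, Int.ofNat 0, Int.ofNat 0, Int.ofNat 0, Int.ofNat 0],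
  [Int.negSucc 4472340479, Int.negSucc 270539246375, Int.ofNat 312033613392, Int.negSucc 117997488935, Int.ofNat 0, Int.ofNat 0, Int.ofNat 1091531553120, Int.negSucc 1165619584655, Int.ofNat 235994977872, Int.ofNat 0, Int.ofNat 0, Int.ofNat 0, Int.ofNat 0, Int.ofNat 0, Int.ofNat 0, Int.ofNat 876020400000, Int.ofNat 0, Int.ofNat 0, Int.ofNat 0, Int.ofNat 0, Int.ofNat 0, Int.negSucc 26542079999, Int.ofNat 451073422080, Int.negSucc 1064828955743, Int.ofNat 0, Int.ofNat 0, Int.ofNat 0, Int.negSucc 1170466199999, Int.ofNat 0, Int.ofNat 0, Int.ofNat 0, Int.ofNat 0, Int.ofNat 0, Int.ofNat 0, Int.ofNat 0],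
  [Int.negSucc 21340205875, Int.ofNat 117393961004, Int.negSucc 239218595255, Int.ofNat 211616131004, Int.negSucc 68451290875, Int.ofNat 0, Int.negSucc 320148745511, Int.ofNat 854213159144, Int.negSucc 863550974763, Int.ofNat 205353872628, Int.ofNat 0, Int.ofNat 297926100000, Int.ofNat 0, Int.ofNat 0, Int.ofNat 0, Int.negSucc 1802848152047, Int.ofNat 1379513374016, Int.ofNat 0, Int.ofNat 0, Int.ofNat 0, Int.ofNat 0, Int.ofNat 0, Int.negSucc 143264672007, Int.ofNat 666636154016, Int.negSucc 600915212007, Int.ofNat 0, Int.ofNat 0, Int.negSucc 1255369141151, Int.ofNat 385113784252, Int.negSucc 205353872627, Int.ofNat 0, Int.negSucc 533048849999, Int.ofNat 0, Int.ofNat 0, Int.ofNat 0],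
  [Int.ofNat 0, Int.negSucc 5221361249, Int.ofNat 35205738750, Int.negSucc 75324532499, Int.ofNat 65917293750, Int.negSucc 20577138749, Int.ofNat 10442722500, Int.negSucc 116059938749, Int.ofNat 354283166250, Int.negSucc 333637177499, Int.ofNat 82308555000, Int.negSucc 267061859999, Int.ofNat 316630417500, Int.negSucc 41154277499, Int.negSucc 93664349999, Int.ofNat 58992705000, Int.negSucc 678924787499, Int.ofNat 582832462500, Int.ofNat 0, Int.ofNat 177431715000, Int.ofNat 0, Int.ofNat 0, Int.ofNat 0, Int.negSucc 29496352499, Int.ofNat 202837770000, Int.negSucc 178666762499, Int.ofNat 0, Int.ofNat 136945383750, Int.negSucc 343840443749, Int.ofNat 132771757500, Int.negSucc 82308554999, Int.ofNat 819747742500, Int.negSucc 582832462499, Int.ofNat 0, Int.ofNat 0],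
  [Int.negSucc 477757439999, Int.ofNat 1091531553120, Int.negSucc 814630384655, Int.ofNat 235994977872, Int.ofNat 0, Int.ofNat 0, Int.negSucc 1481277961439, Int.ofNat 2218765491792, Int.negSucc 1179974889359, Int.ofNat 0, Int.ofNat 0, Int.ofNat 0, Int.ofNat 0, Int.ofNat 0, Int.ofNat 0, Int.negSucc 4380101999999, Int.ofNat 0, Int.ofNat 0, Int.ofNat 0, Int.ofNat 0, Int.ofNat 0, Int.negSucc 3408736452479, Int.ofNat 4306293422784, Int.negSucc 1631254622975, Int.ofNat 0, Int.ofNat 0, Int.ofNat 0, Int.negSucc 7488271799999, Int.ofNat 0, Int.ofNat 0, Int.ofNat 0, Int.ofNat 0, Int.ofNat 0, Int.ofNat 0, Int.ofNat 0],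
  [Int.ofNat 0, Int.negSucc 411671995511, Int.ofNat 854213159144, Int.negSucc 714587924763, Int.ofNat 205353872628, Int.ofNat 0, Int.ofNat 826333889528, Int.negSucc 2744560906255, Int.ofNat 3127580261930, Int.negSucc 1129446299453, Int.ofNat 0, Int.negSucc 1000677295983, Int.ofNat 0, Int.ofNat 0, Int.ofNat 0, Int.ofNat 3988420168112, Int.negSucc 5471162247047, Int.ofNat 0, Int.ofNat 0, Int.ofNat 0, Int.ofNat 0, Int.ofNat 1024329882048, Int.negSucc 1908004782047, Int.ofNat 1200377284016, Int.negSucc 313415674015, Int.ofNat 0, Int.ofNat 0, Int.ofNat 13323133662216, Int.negSucc 13291741556933, Int.ofNat 2156215662594, Int.ofNat 0, Int.ofNat 5597012925000, Int.ofNat 0, Int.ofNat 0, Int.ofNat 0],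
  [Int.ofNat 0, Int.ofNat 10442722500, Int.negSucc 156975063749, Int.ofNat 354283166250, Int.negSucc 288777352499, Int.ofNat 82308555000, Int.negSucc 52213612499, Int.ofNat 543917278125, Int.negSucc 1954099535624, Int.ofNat 1937178281250, Int.negSucc 617314162499, Int.ofNat 2525062005000, Int.negSucc 2911340474999, Int.ofNat 740776995000, Int.ofNat 1685958300000, Int.ofNat 2194630605000, Int.negSucc 1205626983749, Int.negSucc 1602717131249, Int.ofNat 0, Int.ofNat 2794029795000, Int.ofNat 0, Int.ofNat 0, Int.ofNat 167083560000, Int.negSucc 1077713504999, Int.ofNat 999875137500, Int.negSucc 208175062499, Int.ofNat 0, Int.negSucc 877870456874, Int.ofNat 2321207026875, Int.negSucc 3481497753749, Int.ofNat 617314162500, Int.negSucc 4494714198749, Int.ofNat 4371243468750, Int.ofNat 0, Int.ofNat 0],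
  [Int.ofNat 0, Int.ofNat 0, Int.ofNat 81830250000, Int.negSucc 267061859999, Int.ofNat 182050942500, Int.negSucc 41154277499, Int.ofNat 0, Int.negSucc 366524594999, Int.ofNat 2525062005000, Int.negSucc 2249156159999, Int.ofNat 740776995000, Int.negSucc 6213293729999, Int.ofNat 6715933357500, Int.negSucc 2675028037499, Int.negSucc 6088182749999, Int.negSucc 8250342479999, Int.ofNat 15240721455000, Int.negSucc 4905771074999, Int.ofNat 0, Int.negSucc 4205435354999, Int.ofNat 0, Int.ofNat 0, Int.ofNat 0, Int.ofNat 2371608720000, Int.negSucc 3920891669999, Int.ofNat 1488350700000, Int.ofNat 0, Int.negSucc 895159754999, Int.ofNat 5413327605000, Int.negSucc 4315799474999, Int.ofNat 2140022430000, Int.negSucc 18744100244999, Int.ofNat 15153644025000, Int.ofNat 0, Int.ofNat 0],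
  [Int.ofNat 0, Int.ofNat 163337850000, Int.negSucc 1101175964999, Int.ofNat 340591365000, Int.ofNat 0, Int.ofNat 0, Int.negSucc 816689249999, Int.ofNat 2411581545000, Int.ofNat 7389675225000, Int.negSucc 4063791059999, Int.ofNat 0, Int.negSucc 28724797799999, Int.ofNat 14900567220000, Int.ofNat 0, Int.ofNat 0, Int.ofNat 10576867916250, Int.negSucc 22245399562499, Int.ofNat 16233307571250, Int.ofNat 0, Int.ofNat 36517842900000, Int.ofNat 0, Int.ofNat 0, Int.ofNat 5263597350000, Int.negSucc 11092808756249, Int.ofNat 9294518542500, Int.negSucc 4427265701249, Int.ofNat 0, Int.ofNat 34455648780000, Int.negSucc 28266636689999, Int.ofNat 877364460000, Int.ofNat 0, Int.ofNat 21711889620000, Int.ofNat 0, Int.ofNat 0, Int.ofNat 0],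
  [Int.ofNat 0, Int.ofNat 0, Int.ofNat 20961787500, Int.negSucc 29346502499, Int.ofNat 8384715000, Int.ofNat 0, Int.ofNat 0, Int.negSucc 115289831249, Int.negSucc 64981541249, Int.ofNat 633045982500, Int.negSucc 352158029999, Int.ofNat 746239635000, Int.negSucc 2745994162499, Int.ofNat 1467325125000, Int.ofNat 3929636430000, Int.negSucc 194245897499, Int.ofNat 2008837968750, Int.negSucc 4690549316249, Int.ofNat 2200987687500, Int.negSucc 1049486827499, Int.ofNat 8225405415000, Int.ofNat 0, Int.ofNat 0, Int.ofNat 205425517500, Int.negSucc 750431992499, Int.ofNat 1014550515000, Int.negSucc 528237044999, Int.ofNat 220098768750, Int.ofNat 714796953750, Int.ofNat 482121112500, Int.negSucc 1978792739999, Int.negSucc 6722445251249, Int.ofNat 8877317006250, Int.negSucc 3433540792499, Int.negSucc 9810116549999],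
  [Int.ofNat 530841600000, Int.ofNat 207028224000, Int.ofNat 0, Int.ofNat 0, Int.ofNat 0, Int.ofNat 0, Int.negSucc 6900940799999, Int.ofNat 4459069440000, Int.ofNat 0, Int.ofNat 0, Int.ofNat 0, Int.ofNat 0, Int.ofNat 0, Int.ofNat 0, Int.ofNat 0, Int.ofNat 0, Int.ofNat 0, Int.ofNat 0, Int.ofNat 0, Int.ofNat 0, Int.ofNat 0, Int.negSucc 7537950719999, Int.ofNat 5812715520000, Int.ofNat 2786918400000, Int.ofNat 0, Int.ofNat 0, Int.ofNat 0, Int.ofNat 12740198400000, Int.ofNat 0, Int.ofNat 0, Int.ofNat 0, Int.ofNat 0, Int.ofNat 0, Int.ofNat 0, Int.ofNat 0],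
  [Int.negSucc 405467639999, Int.ofNat 222913620000, Int.negSucc 129979349999, Int.ofNat 0, Int.ofNat 0, Int.ofNat 0, Int.ofNat 2099534040000, Int.negSucc 2718059759999, Int.ofNat 1818096840000, Int.ofNat 0, Int.ofNat 0, Int.ofNat 0, Int.ofNat 0, Int.ofNat 0, Int.ofNat 0, Int.ofNat 11943207000000, Int.ofNat 0, Int.ofNat 0, Int.ofNat 0, Int.ofNat 0, Int.ofNat 0, Int.ofNat 1419351660000, Int.negSucc 6410647394999, Int.ofNat 368722125000, Int.ofNat 1596662550000, Int.ofNat 0, Int.ofNat 0, Int.negSucc 12268878839999, Int.ofNat 16169747040000, Int.ofNat 0, Int.ofNat 0, Int.ofNat 0, Int.ofNat 0, Int.ofNat 0, Int.ofNat 0],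
  [Int.ofNat 0, Int.negSucc 222986587499, Int.ofNat 409270320000, Int.negSucc 170295682499, Int.ofNat 0, Int.ofNat 0, Int.negSucc 401932799999, Int.ofNat 764578305000, Int.negSucc 3752372384999, Int.ofNat 2031895530000, Int.ofNat 0, Int.ofNat 8411449320000, Int.negSucc 4063791059999, Int.ofNat 0, Int.ofNat 0, Int.negSucc 11092808756249, Int.ofNat 16073110462500, Int.negSucc 4427265701249, Int.ofNat 0, Int.negSucc 9959411699999, Int.ofNat 0, Int.ofNat 317964740625, Int.ofNat 152327756250, Int.ofNat 755013521250, Int.negSucc 3325943733749, Int.ofNat 2213632850625, Int.ofNat 0, Int.negSucc 3087663299999, Int.negSucc 4960565549999, Int.ofNat 13107287970000, Int.ofNat 0, Int.ofNat 11375797140000, Int.ofNat 0, Int.ofNat 0, Int.ofNat 0],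
  [Int.ofNat 0, Int.ofNat 0, Int.negSucc 6987262499, Int.ofNat 9782167500, Int.negSucc 2794904999, Int.ofNat 0, Int.ofNat 0, Int.ofNat 20961787500, Int.ofNat 58693005000, Int.negSucc 211015327499, Int.ofNat 117386010000, Int.negSucc 176079014999, Int.ofNat 670777200000, Int.negSucc 352158029999, Int.negSucc 1140321239999, Int.ofNat 37731217500, Int.negSucc 750431992499, Int.ofNat 1584711135000, Int.negSucc 528237044999, Int.ofNat 1266091965000, Int.negSucc 2565722789999, Int.ofNat 0, Int.ofNat 0, Int.negSucc 18865608749, Int.ofNat 127168177500, Int.negSucc 303945918749, Int.ofNat 176079015000, Int.negSucc 20961787499, Int.negSucc 121578367499, Int.negSucc 855240929999, Int.ofNat 1207398960000, Int.ofNat 1488286912500, Int.negSucc 968434582499, Int.ofNat 528237045000, Int.ofNat 1509248700000],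
  [Int.ofNat 0, Int.negSucc 749760132047, Int.negSucc 1255369141151, Int.ofNat 874066988268, Int.negSucc 205353872627, Int.ofNat 0, Int.negSucc 2397178632047, Int.ofNat 13323133662216, Int.negSucc 5636746508741, Int.ofNat 2156215662594, Int.ofNat 0, Int.negSucc 10268017284335, Int.ofNat 0, Int.ofNat 0, Int.ofNat 0, Int.ofNat 54828041280960, Int.negSucc 29954497083671, Int.ofNat 0, Int.ofNat 0, Int.ofNat 0, Int.ofNat 0, Int.ofNat 1647418500000, Int.negSucc 8410917828191, Int.negSucc 4673392199999, Int.ofNat 4545738294096, Int.ofNat 0, Int.ofNat 0, Int.negSucc 15154800916679, Int.ofNat 32004759047970, Int.negSucc 23718372288533, Int.ofNat 0, Int.negSucc 61567142174999, Int.ofNat 0, Int.ofNat 0, Int.ofNat 0],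
  [Int.ofNat 0, Int.ofNat 0, Int.ofNat 94318728750, Int.negSucc 343840443749, Int.ofNat 288777352500, Int.negSucc 82308554999, Int.ofNat 0, Int.negSucc 1880371816874, Int.ofNat 2321207026875, Int.negSucc 1560555618749, Int.ofNat 617314162500, Int.ofNat 5413327605000, Int.negSucc 5687710649999, Int.ofNat 2140022430000, Int.ofNat 4870546200000, Int.negSucc 7019758889999, Int.ofNat 3502907471250, Int.negSucc 3011493431249, Int.ofNat 0, Int.negSucc 56277778994999, Int.ofNat 0, Int.ofNat 0, Int.ofNat 1820803860000, Int.negSucc 1900123109999, Int.ofNat 1430596687500, Int.ofNat 208175062500, Int.ofNat 0, Int.ofNat 2516804915625, Int.ofNat 3438603444375, Int.ofNat 26515752266250, Int.negSucc 15021311287499, Int.ofNat 102035986436250, Int.negSucc 106366924406249, Int.ofNat 0, Int.ofNat 0],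
  [Int.ofNat 0, Int.ofNat 0, Int.negSucc 20961787499, Int.ofNat 29346502500, Int.negSucc 8384714999, Int.ofNat 0, Int.ofNat 0, Int.ofNat 220098768750, Int.negSucc 157213406249, Int.negSucc 633045982499, Int.ofNat 352158030000, Int.negSucc 1308015539999, Int.ofNat 4506784312500, Int.negSucc 2289027194999, Int.ofNat 3270038850000, Int.ofNat 1844637300000, Int.negSucc 6722445251249, Int.ofNat 5590508726250, Int.negSucc 3433540792499, Int.negSucc 42011614507499, Int.ofNat 15369182595000, Int.ofNat 0, Int.ofNat 0, Int.negSucc 503082899999, Int.ofNat 1488286912500, Int.negSucc 1219976032499, Int.ofNat 528237045000, Int.negSucc 2421086456249, Int.ofNat 6760176468750, Int.ofNat 3098152192500, Int.negSucc 1308015539999, Int.ofNat 6835638903750, Int.negSucc 19940948448749, Int.ofNat 19456731157500, Int.ofNat 55590660450000]],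
  true, 6383852471797678080000, 1⟩

end

end Vale.Agent.P154q4.D4
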