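import Vale.Agent.P154q4.TM

namespace Vale.Agent.P154q4.D4

noncomputable section

open Vale.Agent.P154q4.TMC MT in
/-- Data of one sign branch. -/
def DInp : Data :=
  ⟨false, true, 42,
   (p (p (p (p (p nil nil) nil) nil) (e (p (p (p (p nil nil) (e (p (p nil (t nil nil)) nil) nil)) (t (p (p (p nil nil) (t (p nil nil) nil)) nil) nil)) nil) nil)) (t (p (p (p (p (p nil nil) nil) nil) (t (p (p (p nil nil) (t (p (p nil (t nil nil)) nil) nil)) nil) nil)) nil) nil)),
   (p (p (p nil nil) (e (p (p (e nil nil) (t (p nil nil) nil)) nil) nil)) (t (p (p (p nil nil) (t (p (t nil nil) nil) nil)) nil) nil)),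
  [[Int.ofNat 398131200000, Int.ofNat 126959616000, Int.negSucc 185794559999, Int.ofNat 0, Int.ofNat 0, Int.ofNat 0, Int.negSucc 1911029759999, Int.ofNat 0, Int.ofNat 0, Int.ofNat 0, Int.ofNat 0, Int.ofNat 0, Int.ofNat 0, Int.ofNat 0, Int.ofNat 0, Int.ofNat 0, Int.ofNat 0, Int.ofNat 0, Int.ofNat 0, Int.ofNat 0, Int.ofNat 0, Int.ofNat 1167851520000, Int.negSucc 3291217919999, Int.ofNat 0, Int.ofNat 0, Int.ofNat 0, Int.ofNat 0, Int.ofNat 0, Int.ofNat 0, Int.ofNat 0, Int.ofNat 0, Int.ofNat 0, Int.ofNat 0, Int.ofNat 0, Int.ofNat 0],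
  [Int.negSucc 4472340479, Int.negSucc 270539246375, Int.ofNat 312033613392, Int.negSucc 117997488935, Int.ofNat 0, Int.ofNat 0, Int.ofNat 1091531553120, Int.negSucc 1165619584655, Int.ofNat 235994977872, Int.ofNat 0, Int.ofNat 0, Int.ofNat 0, Int.ofNat 0, Int.ofNat 0, Int.ofNat 0, Int.ofNat 876020400000, Int.ofNat 0, Int.ofNat 0, Int.ofNat 0, Int.ofNat 0, Int.ofNat 0, Int.negSucc 26542079999, Int.ofNat 451073422080, Int.negSucc 1064828955743, Int.ofNat 0, Int.ofNat 0, Int.ofNat 0, Int.negSucc 1170466199999, Int.ofNat 0, Int.ofNat 0, Int.ofNat 0, Int.ofNat 0, Int.ofNat 0, Int.ofNat 0, Int.ofNat 0],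
  [Int.negSucc 21340205875, Int.ofNat 117393961004, Int.negSucc 239218595255, Int.ofNat 211616131004, Int.negSucc 68451290875, Int.ofNat 0, Int.negSucc 320148745511, Int.ofNat 854213159144, Int.negSucc 863550974763, Int.ofNat 205353872628, Int.ofNat 0, Int.ofNat 297926100000, Int.ofNat 0, Int.ofNat 0, Int.ofNat 0, Int.negSucc 1802848152047, Int.ofNat 1379513374016, Int.ofNat 0, Int.ofNat 0, Int.ofNat 0, Int.ofNat 0, Int.ofNat 0, Int.negSucc 143264672007, Int.ofNat 666636154016, Int.negSucc 600915212007, Int.ofNat 0, Int.ofNat 0, Int.negSucc 1255369141151, Int.ofNat 385113784252, Int.negSucc 205353872627, Int.ofNat 0, Int.negSucc 533048849999, Int.ofNat 0, Int.ofNat 0, Int.ofNat 0],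
  [Int.ofNat 0, Int.negSucc 5221361249, Int.ofNat 35205738750, Int.negSucc 75324532499, Int.ofNat 65917293750, Int.negSucc 20577138749, Int.ofNat 10442722500, Int.negSucc 116059938749, Int.ofNat 354283166250, Int.negSucc 333637177499, Int.ofNat 82308555000, Int.negSucc 267061859999, Int.ofNat 316630417500, Int.negSucc 41154277499, Int.negSucc 93664349999, Int.ofNat 58992705000, Int.negSucc 678924787499, Int.ofNat 582832462500, Int.ofNat 0, Int.ofNat 177431715000, Int.ofNat 0, Int.ofNat 0, Int.ofNat 0, Int.negSucc 29496352499, Int.ofNat 202837770000, Int.negSucc 178666762499, Int.ofNat 0, Int.ofNat 136945383750, Int.negSucc 343840443749, Int.ofNat 132771757500, Int.negSucc 82308554999, Int.ofNat 819747742500, Int.negSucc 582832462499, Int.ofNat 0, Int.ofNat 0],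
  [Int.negSucc 477757439999, Int.ofNat 1091531553120, Int.negSucc 814630384655, Int.ofNat 235994977872, Int.ofNat 0, Int.ofNat 0, Int.negSucc 1481277961439, Int.ofNat 2218765491792, Int.negSucc 1179974889359, Int.ofNat 0, Int.ofNat 0, Int.ofNat 0, Int.ofNat 0, Int.ofNat 0, Int.ofNat 0, Int.negSucc 4380101999999, Int.ofNat 0, Int.ofNat 0, Int.ofNat 0, Int.ofNat 0, Int.ofNat 0, Int.negSucc 3408736452479, Int.ofNat 4306293422784, Int.negSucc 1631254622975, Int.ofNat 0, Int.ofNat 0, Int.ofNat 0, Int.negSucc 7488271799999, Int.ofNat 0, Int.ofNat 0, Int.ofNat 0, Int.ofNat 0, Int.ofNat 0, Int.ofNat 0, Int.ofNat 0],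
  [Int.ofNat 0, Int.negSucc 411671995511, Int.ofNat 854213159144, Int.negSucc 714587924763, Int.ofNat 205353872628, Int.ofNat 0, Int.ofNat 826333889528, Int.negSucc 2744560906255, Int.ofNat 3127580261930, Int.negSucc 1129446299453, Int.ofNat 0, Int.negSucc 1000677295983, Int.ofNat 0, Int.ofNat 0, Int.ofNat 0, Int.ofNat 3988420168112, Int.negSucc 5471162247047, Int.ofNat 0, Int.ofNat 0, Int.ofNat 0, Int.ofNat 0, Int.ofNat 1024329882048, Int.negSucc 1908004782047, Int.ofNat 1200377284016, Int.negSucc 313415674015, Int.ofNat 0, Int.ofNat 0, Int.ofNat 13323133662216, Int.negSucc 13291741556933, Int.ofNat 2156215662594, Int.ofNat 0, Int.ofNat 5597012925000, Int.ofNat 0, Int.ofNat 0, Int.ofNat 0],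
  [Int.ofNat 0, Int.ofNat 10442722500, Int.negSucc 156975063749, Int.ofNat 354283166250, Int.negSucc 288777352499, Int.ofNat 82308555000, Int.negSucc 52213612499, Int.ofNat 543917278125, Int.negSucc 1954099535624, Int.ofNat 1937178281250, Int.negSucc 617314162499, Int.ofNat 2525062005000, Int.negSucc 2911340474999, Int.ofNat 740776995000, Int.ofNat 1685958300000, Int.ofNat 2194630605000, Int.negSucc 1205626983749, Int.negSucc 1602717131249, Int.ofNat 0, Int.ofNat 2794029795000, Int.ofNat 0, Int.ofNat 0, Int.ofNat 167083560000, Int.negSucc 1077713504999, Int.ofNat 999875137500, Int.negSucc 208175062499, Int.ofNat 0, Int.negSucc 877870456874, Int.ofNat 2321207026875, Int.negSucc 3481497753749, Int.ofNat 617314162500, Int.negSucc 4494714198749, Int.ofNat 4371243468750, Int.ofNat 0, Int.ofNat 0],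
  [Int.ofNat 0, Int.ofNat 0, Int.ofNat 81830250000, Int.negSucc 267061859999, Int.ofNat 182050942500, Int.negSucc 41154277499, Int.ofNat 0, Int.negSucc 366524594999, Int.ofNat 2525062005000, Int.negSucc 2249156159999, Int.ofNat 740776995000, Int.negSucc 6213293729999, Int.ofNat 6715933357500, Int.negSucc 2675028037499, Int.negSucc 6088182749999, Int.negSucc 8250342479999, Int.ofNat 15240721455000, Int.negSucc 4905771074999, Int.ofNat 0, Int.negSucc 4205435354999, Int.ofNat 0, Int.ofNat 0, Int.ofNat 0, Int.ofNat 2371608720000, Int.negSucc 3920891669999, Int.ofNat 1488350700000, Int.ofNat 0, Int.negSucc 895159754999, Int.ofNat 5413327605000, Int.negSucc 4315799474999, Int.ofNat 2140022430000, Int.negSucc 18744100244999, Int.ofNat 15153644025000, Int.ofNat 0, Int.ofNat 0],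
  [Int.ofNat 0, Int.negSucc 163337849999, Int.ofNat 1101175965000, Int.negSucc 340591364999, Int.ofNat 0, Int.ofNat 0, Int.ofNat 816689250000, Int.negSucc 2411581544999, Int.negSucc 7389675224999, Int.ofNat 4063791060000, Int.ofNat 0, Int.ofNat 28724797800000, Int.negSucc 14900567219999, Int.ofNat 0, Int.ofNat 0, Int.negSucc 10576867916249, Int.ofNat 22245399562500, Int.negSucc 16233307571249, Int.ofNat 0, Int.negSucc 36517842899999, Int.ofNat 0, Int.ofNat 0, Int.negSucc 5263597349999, Int.ofNat 11092808756250, Int.negSucc 9294518542499, Int.ofNat 4427265701250, Int.ofNat 0, Int.negSucc 34455648779999, Int.ofNat 28266636690000, Int.negSucc 877364459999, Int.ofNat 0, Int.negSucc 21711889619999, Int.ofNat 0, Int.ofNat 0, Int.ofNat 0],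
  [Int.ofNat 0, Int.ofNat 0, Int.negSucc 20961787499, Int.ofNat 29346502500, Int.negSucc 8384714999, Int.ofNat 0, Int.ofNat 0, Int.ofNat 115289831250, Int.ofNat 64981541250, Int.negSucc 633045982499, Int.ofNat 352158030000, Int.negSucc 746239634999, Int.ofNat 2745994162500, Int.negSucc 1467325124999, Int.negSucc 3929636429999, Int.ofNat 194245897500, Int.negSucc 2008837968749, Int.ofNat 4690549316250, Int.negSucc 2200987687499, Int.ofNat 1049486827500, Int.negSucc 8225405414999, Int.ofNat 0, Int.ofNat 0, Int.negSucc 205425517499, Int.ofNat 750431992500, Int.negSucc 1014550514999, Int.ofNat 528237045000, Int.negSucc 220098768749, Int.negSucc 714796953749, Int.negSucc 482121112499, Int.ofNat 1978792740000, Int.ofNat 6722445251250, Int.negSucc 8877317006249, Int.ofNat 3433540792500, Int.ofNat 9810116550000],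
  [Int.negSucc 530841599999, Int.negSucc 207028223999, Int.ofNat 0, Int.ofNat 0, Int.ofNat 0, Int.ofNat 0, Int.ofNat 6900940800000, Int.negSucc 4459069439999, Int.ofNat 0, Int.ofNat 0, Int.ofNat 0, Int.ofNat 0, Int.ofNat 0, Int.ofNat 0, Int.ofNat 0, Int.ofNat 0, Int.ofNat 0, Int.ofNat 0, Int.ofNat 0, Int.ofNat 0, Int.ofNat 0, Int.ofNat 7537950720000, Int.negSucc 5812715519999, Int.negSucc 2786918399999, Int.ofNat 0, Int.ofNat 0, Int.ofNat 0, Int.negSucc 12740198399999, Int.ofNat 0, Int.ofNat 0, Int.ofNat 0, Int.ofNat 0, Int.ofNat 0, Int.ofNat 0, Int.ofNat 0],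
  [Int.ofNat 405467640000, Int.negSucc 222913619999, Int.ofNat 129979350000, Int.ofNat 0, Int.ofNat 0, Int.ofNat 0, Int.negSucc 2099534039999, Int.ofNat 2718059760000, Int.negSucc 1818096839999, Int.ofNat 0, Int.ofNat 0, Int.ofNat 0, Int.ofNat 0, Int.ofNat 0, Int.ofNat 0, Int.negSucc 11943206999999, Int.ofNat 0, Int.ofNat 0, Int.ofNat 0, Int.ofNat 0, Int.ofNat 0, Int.negSucc 1419351659999, Int.ofNat 6410647395000, Int.negSucc 368722124999, Int.negSucc 1596662549999, Int.ofNat 0, Int.ofNat 0, Int.ofNat 12268878840000, Int.negSucc 16169747039999, Int.ofNat 0, Int.ofNat 0, Int.ofNat 0, Int.ofNat 0, Int.ofNat 0, Int.ofNat 0],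
  [Int.ofNat 0, Int.ofNat 222986587500, Int.negSucc 409270319999, Int.ofNat 170295682500, Int.ofNat 0, Int.ofNat 0, Int.ofNat 401932800000, Int.negSucc 764578304999, Int.ofNat 3752372385000, Int.negSucc 2031895529999, Int.ofNat 0, Int.negSucc 8411449319999, Int.ofNat 4063791060000, Int.ofNat 0, Int.ofNat 0, Int.ofNat 11092808756250, Int.negSucc 16073110462499, Int.ofNat 4427265701250, Int.ofNat 0, Int.ofNat 9959411700000, Int.ofNat 0, Int.negSucc 317964740624, Int.negSucc 152327756249, Int.negSucc 755013521249, Int.ofNat 3325943733750, Int.negSucc 2213632850624, Int.ofNat 0, Int.ofNat 3087663300000, Int.ofNat 4960565550000, Int.negSucc 13107287969999, Int.ofNat 0, Int.negSucc 11375797139999, Int.ofNat 0, Int.ofNat 0, Int.ofNat 0],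
  [Int.ofNat 0, Int.ofNat 0, Int.ofNat 6987262500, Int.negSucc 9782167499, Int.ofNat 2794905000, Int.ofNat 0, Int.ofNat 0, Int.negSucc 20961787499, Int.negSucc 58693004999, Int.ofNat 211015327500, Int.negSucc 117386009999, Int.ofNat 176079015000, Int.negSucc 670777199999, Int.ofNat 352158030000, Int.ofNat 1140321240000, Int.negSucc 37731217499, Int.ofNat 750431992500, Int.negSucc 1584711134999, Int.ofNat 528237045000, Int.negSucc 1266091964999, Int.ofNat 2565722790000, Int.ofNat 0, Int.ofNat 0, Int.ofNat 18865608750, Int.negSucc 127168177499, Int.ofNat 303945918750, Int.negSucc 176079014999, Int.ofNat 20961787500, Int.ofNat 121578367500, Int.ofNat 855240930000, Int.negSucc 1207398959999, Int.negSucc 1488286912499, Int.ofNat 968434582500, Int.negSucc 528237044999, Int.negSucc 1509248699999],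
  [Int.ofNat 0, Int.negSucc 749760132047, Int.negSucc 1255369141151, Int.ofNat 874066988268, Int.negSucc 205353872627, Int.ofNat 0, Int.negSucc 2397178632047, Int.ofNat 13323133662216, Int.negSucc 5636746508741, Int.ofNat 2156215662594, Int.ofNat 0, Int.negSucc 10268017284335, Int.ofNat 0, Int.ofNat 0, Int.ofNat 0, Int.ofNat 54828041280960, Int.negSucc 29954497083671, Int.ofNat 0, Int.ofNat 0, Int.ofNat 0, Int.ofNat 0, Int.ofNat 1647418500000, Int.negSucc 8410917828191, Int.negSucc 4673392199999, Int.ofNat 4545738294096, Int.ofNat 0, Int.ofNat 0, Int.negSucc 15154800916679, Int.ofNat 32004759047970, Int.negSucc 23718372288533, Int.ofNat 0, Int.negSucc 61567142174999, Int.ofNat 0, Int.ofNat 0, Int.ofNat 0],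
  [Int.ofNat 0, Int.ofNat 0, Int.ofNat 94318728750, Int.negSucc 343840443749, Int.ofNat 288777352500, Int.negSucc 82308554999, Int.ofNat 0, Int.negSucc 1880371816874, Int.ofNat 2321207026875, Int.negSucc 1560555618749, Int.ofNat 617314162500, Int.ofNat 5413327605000, Int.negSucc 5687710649999, Int.ofNat 2140022430000, Int.ofNat 4870546200000, Int.negSucc 7019758889999, Int.ofNat 3502907471250, Int.negSucc 3011493431249, Int.ofNat 0, Int.negSucc 56277778994999, Int.ofNat 0, Int.ofNat 0, Int.ofNat 1820803860000, Int.negSucc 1900123109999, Int.ofNat 1430596687500, Int.ofNat 208175062500, Int.ofNat 0, Int.ofNat 2516804915625, Int.ofNat 3438603444375, Int.ofNat 26515752266250, Int.negSucc 15021311287499, Int.ofNat 102035986436250, Int.negSucc 106366924406249, Int.ofNat 0, Int.ofNat 0],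
  [Int.ofNat 0, Int.ofNat 0, Int.ofNat 20961787500, Int.negSucc 29346502499, Int.ofNat 8384715000, Int.ofNat 0, Int.ofNat 0, Int.negSucc 220098768749, Int.ofNat 157213406250, Int.ofNat 633045982500, Int.negSucc 352158029999, Int.ofNat 1308015540000, Int.negSucc 4506784312499, Int.ofNat 2289027195000, Int.negSucc 3270038849999, Int.negSucc 1844637299999, Int.ofNat 6722445251250, Int.negSucc 5590508726249, Int.ofNat 3433540792500, Int.ofNat 42011614507500, Int.negSucc 15369182594999, Int.ofNat 0, Int.ofNat 0, Int.ofNat 503082900000, Int.negSucc 1488286912499, Int.ofNat 1219976032500, Int.negSucc 528237044999, Int.ofNat 2421086456250, Int.negSucc 6760176468749, Int.negSucc 3098152192499, Int.ofNat 1308015540000, Int.negSucc 6835638903749, Int.ofNat 19940948448750, Int.negSucc 19456731157499, Int.negSucc 55590660449999]],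
  true, 6383852471797678080000, 1⟩

end

end Vale.Agent.P154q4.D4
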