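import Vale.Agent.P154q4.TM

namespace Vale.Agent.P154q4.D4

noncomputable section

open Vale.Agent.P154q4.TMC MT in
/-- Data of one sign branch. -/
def DIpn : Data :=
  ⟨true, false, 42,
   (p (p (p (p (p nil nil) nil) nil) (e (p (p (p (p nil nil) (e (p (p nil (t nil nil)) nil) nil)) (t (p (p (p nil nil) (t (p nil nil) nil)) nil) nil)) nil) nil)) (t (p (p (p (p (p nil nil) nil) nil) (t (p (p (p nil nil) (t (p (p nil (t nil nil)) nil) nil)) nil) nil)) nil) nil)),
   (p (p (p nil nil) (e (p (p (e nil nil) (t (p nil nil) nil)) nil) nil)) (t (p (p (p nil nil) (t (p (t nil nil) nil) nil)) nil) nil)),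
  [[Int.ofNat 398131200000, Int.ofNat 126959616000, Int.negSucc 185794559999, Int.ofNat 0, Int.ofNat 0, Int.ofNat 0, Int.negSucc 1911029759999, Int.ofNat 0, Int.ofNat 0, Int.ofNat 0, Int.ofNat 0, Int.ofNat 0, Int.ofNat 0, Int.ofNat 0, Int.ofNat 0, Int.ofNat 0, Int.ofNat 0, Int.ofNat 0, Int.ofNat 0, Int.ofNat 0, Int.ofNat 0, Int.negSucc 1167851519999, Int.ofNat 3291217920000, Int.ofNat 0, Int.ofNat 0, Int.ofNat 0, Int.ofNat 0, Int.ofNat 0, Int.ofNat 0, Int.ofNat 0, Int.ofNat 0, Int.ofNat 0, Int.ofNat 0, Int.ofNat 0, Int.ofNat 0],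
  [Int.negSucc 4472340479, Int.negSucc 270539246375, Int.ofNat 312033613392, Int.negSucc 117997488935, Int.ofNat 0, Int.ofNat 0, Int.ofNat 1091531553120, Int.negSucc 1165619584655, Int.ofNat 235994977872, Int.ofNat 0, Int.ofNat 0, Int.ofNat 0, Int.ofNat 0, Int.ofNat 0, Int.ofNat 0, Int.negSucc 876020399999, Int.ofNat 0, Int.ofNat 0, Int.ofNat 0, Int.ofNat 0, Int.ofNat 0, Int.ofNat 26542080000, Int.negSucc 451073422079, Int.ofNat 1064828955744, Int.ofNat 0, Int.ofNat 0, Int.ofNat 0, Int.negSucc 1170466199999, Int.ofNat 0, Int.ofNat 0, Int.ofNat 0, Int.ofNat 0, Int.ofNat 0, Int.ofNat 0, Int.ofNat 0],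
  [Int.negSucc 21340205875, Int.ofNat 117393961004, Int.negSucc 239218595255, Int.ofNat 211616131004, Int.negSucc 68451290875, Int.ofNat 0, Int.negSucc 320148745511, Int.ofNat 854213159144, Int.negSucc 863550974763, Int.ofNat 205353872628, Int.ofNat 0, Int.ofNat 297926100000, Int.ofNat 0, Int.ofNat 0, Int.ofNat 0, Int.ofNat 1802848152048, Int.negSucc 1379513374015, Int.ofNat 0, Int.ofNat 0, Int.ofNat 0, Int.ofNat 0, Int.ofNat 0, Int.ofNat 143264672008, Int.negSucc 666636154015, Int.ofNat 600915212008, Int.ofNat 0, Int.ofNat 0, Int.negSucc 1255369141151, Int.ofNat 385113784252, Int.negSucc 205353872627, Int.ofNat 0, Int.ofNat 533048850000, Int.ofNat 0, Int.ofNat 0, Int.ofNat 0],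
  [Int.ofNat 0, Int.negSucc 5221361249, Int.ofNat 35205738750, Int.negSucc 75324532499, Int.ofNat 65917293750, Int.negSucc 20577138749, Int.ofNat 10442722500, Int.negSucc 116059938749, Int.ofNat 354283166250, Int.negSucc 333637177499, Int.ofNat 82308555000, Int.negSucc 267061859999, Int.ofNat 316630417500, Int.negSucc 41154277499, Int.ofNat 93664350000, Int.negSucc 58992704999, Int.ofNat 678924787500, Int.negSucc 582832462499, Int.ofNat 0, Int.ofNat 177431715000, Int.ofNat 0, Int.ofNat 0, Int.ofNat 0, Int.ofNat 29496352500, Int.negSucc 202837769999, Int.ofNat 178666762500, Int.ofNat 0, Int.ofNat 136945383750, Int.negSucc 343840443749, Int.ofNat 132771757500, Int.negSucc 82308554999, Int.negSucc 819747742499, Int.ofNat 582832462500, Int.ofNat 0, Int.ofNat 0],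
  [Int.negSucc 477757439999, Int.ofNat 1091531553120, Int.negSucc 814630384655, Int.ofNat 235994977872, Int.ofNat 0, Int.ofNat 0, Int.negSucc 1481277961439, Int.ofNat 2218765491792, Int.negSucc 1179974889359, Int.ofNat 0, Int.ofNat 0, Int.ofNat 0, Int.ofNat 0, Int.ofNat 0, Int.ofNat 0, Int.ofNat 4380102000000, Int.ofNat 0, Int.ofNat 0, Int.ofNat 0, Int.ofNat 0, Int.ofNat 0, Int.ofNat 3408736452480, Int.negSucc 4306293422783, Int.ofNat 1631254622976, Int.ofNat 0, Int.ofNat 0, Int.ofNat 0, Int.negSucc 7488271799999, Int.ofNat 0, Int.ofNat 0, Int.ofNat 0, Int.ofNat 0, Int.ofNat 0, Int.ofNat 0, Int.ofNat 0],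
  [Int.ofNat 0, Int.negSucc 411671995511, Int.ofNat 854213159144, Int.negSucc 714587924763, Int.ofNat 205353872628, Int.ofNat 0, Int.ofNat 826333889528, Int.negSucc 2744560906255, Int.ofNat 3127580261930, Int.negSucc 1129446299453, Int.ofNat 0, Int.negSucc 1000677295983, Int.ofNat 0, Int.ofNat 0, Int.ofNat 0, Int.negSucc 3988420168111, Int.ofNat 5471162247048, Int.ofNat 0, Int.ofNat 0, Int.ofNat 0, Int.ofNat 0, Int.negSucc 1024329882047, Int.ofNat 1908004782048, Int.negSucc 1200377284015, Int.ofNat 313415674016, Int.ofNat 0, Int.ofNat 0, Int.ofNat 13323133662216, Int.negSucc 13291741556933, Int.ofNat 2156215662594, Int.ofNat 0, Int.negSucc 5597012924999, Int.ofNat 0, Int.ofNat 0, Int.ofNat 0],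
  [Int.ofNat 0, Int.ofNat 10442722500, Int.negSucc 156975063749, Int.ofNat 354283166250, Int.negSucc 288777352499, Int.ofNat 82308555000, Int.negSucc 52213612499, Int.ofNat 543917278125, Int.negSucc 1954099535624, Int.ofNat 1937178281250, Int.negSucc 617314162499, Int.ofNat 2525062005000, Int.negSucc 2911340474999, Int.ofNat 740776995000, Int.negSucc 1685958299999, Int.negSucc 2194630604999, Int.ofNat 1205626983750, Int.ofNat 1602717131250, Int.ofNat 0, Int.ofNat 2794029795000, Int.ofNat 0, Int.ofNat 0, Int.negSucc 167083559999, Int.ofNat 1077713505000, Int.negSucc 999875137499, Int.ofNat 208175062500, Int.ofNat 0, Int.negSucc 877870456874, Int.ofNat 2321207026875, Int.negSucc 3481497753749, Int.ofNat 617314162500, Int.ofNat 4494714198750, Int.negSucc 4371243468749, Int.ofNat 0, Int.ofNat 0],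
  [Int.ofNat 0, Int.ofNat 0, Int.ofNat 81830250000, Int.negSucc 267061859999, Int.ofNat 182050942500, Int.negSucc 41154277499, Int.ofNat 0, Int.negSucc 366524594999, Int.ofNat 2525062005000, Int.negSucc 2249156159999, Int.ofNat 740776995000, Int.negSucc 6213293729999, Int.ofNat 6715933357500, Int.negSucc 2675028037499, Int.ofNat 6088182750000, Int.ofNat 8250342480000, Int.negSucc 15240721454999, Int.ofNat 4905771075000, Int.ofNat 0, Int.negSucc 4205435354999, Int.ofNat 0, Int.ofNat 0, Int.ofNat 0, Int.negSucc 2371608719999, Int.ofNat 3920891670000, Int.negSucc 1488350699999, Int.ofNat 0, Int.negSucc 895159754999, Int.ofNat 5413327605000, Int.negSucc 4315799474999, Int.ofNat 2140022430000, Int.ofNat 18744100245000, Int.negSucc 15153644024999, Int.ofNat 0, Int.ofNat 0],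
  [Int.ofNat 0, Int.ofNat 163337850000, Int.negSucc 1101175964999, Int.ofNat 340591365000, Int.ofNat 0, Int.ofNat 0, Int.negSucc 816689249999, Int.ofNat 2411581545000, Int.ofNat 7389675225000, Int.negSucc 4063791059999, Int.ofNat 0, Int.negSucc 28724797799999, Int.ofNat 14900567220000, Int.ofNat 0, Int.ofNat 0, Int.negSucc 10576867916249, Int.ofNat 22245399562500, Int.negSucc 16233307571249, Int.ofNat 0, Int.ofNat 36517842900000, Int.ofNat 0, Int.ofNat 0, Int.negSucc 5263597349999, Int.ofNat 11092808756250, Int.negSucc 9294518542499, Int.ofNat 4427265701250, Int.ofNat 0, Int.ofNat 34455648780000, Int.negSucc 28266636689999, Int.ofNat 877364460000, Int.ofNat 0, Int.negSucc 21711889619999, Int.ofNat 0, Int.ofNat 0, Int.ofNat 0],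
  [Int.ofNat 0, Int.ofNat 0, Int.ofNat 20961787500, Int.negSucc 29346502499, Int.ofNat 8384715000, Int.ofNat 0, Int.ofNat 0, Int.negSucc 115289831249, Int.negSucc 64981541249, Int.ofNat 633045982500, Int.negSucc 352158029999, Int.ofNat 746239635000, Int.negSucc 2745994162499, Int.ofNat 1467325125000, Int.negSucc 3929636429999, Int.ofNat 194245897500, Int.negSucc 2008837968749, Int.ofNat 4690549316250, Int.negSucc 2200987687499, Int.negSucc 1049486827499, Int.ofNat 8225405415000, Int.ofNat 0, Int.ofNat 0, Int.negSucc 205425517499, Int.ofNat 750431992500, Int.negSucc 1014550514999, Int.ofNat 528237045000, Int.ofNat 220098768750, Int.ofNat 714796953750, Int.ofNat 482121112500, Int.negSucc 1978792739999, Int.ofNat 6722445251250, Int.negSucc 8877317006249, Int.ofNat 3433540792500, Int.negSucc 9810116549999],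
  [Int.ofNat 530841600000, Int.ofNat 207028224000, Int.ofNat 0, Int.ofNat 0, Int.ofNat 0, Int.ofNat 0, Int.negSucc 6900940799999, Int.ofNat 4459069440000, Int.ofNat 0, Int.ofNat 0, Int.ofNat 0, Int.ofNat 0, Int.ofNat 0, Int.ofNat 0, Int.ofNat 0, Int.ofNat 0, Int.ofNat 0, Int.ofNat 0, Int.ofNat 0, Int.ofNat 0, Int.ofNat 0, Int.ofNat 7537950720000, Int.negSucc 5812715519999, Int.negSucc 2786918399999, Int.ofNat 0, Int.ofNat 0, Int.ofNat 0, Int.ofNat 12740198400000, Int.ofNat 0, Int.ofNat 0, Int.ofNat 0, Int.ofNat 0, Int.ofNat 0, Int.ofNat 0, Int.ofNat 0],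
  [Int.negSucc 405467639999, Int.ofNat 222913620000, Int.negSucc 129979349999, Int.ofNat 0, Int.ofNat 0, Int.ofNat 0, Int.ofNat 2099534040000, Int.negSucc 2718059759999, Int.ofNat 1818096840000, Int.ofNat 0, Int.ofNat 0, Int.ofNat 0, Int.ofNat 0, Int.ofNat 0, Int.ofNat 0, Int.negSucc 11943206999999, Int.ofNat 0, Int.ofNat 0, Int.ofNat 0, Int.ofNat 0, Int.ofNat 0, Int.negSucc 1419351659999, Int.ofNat 6410647395000, Int.negSucc 368722124999, Int.negSucc 1596662549999, Int.ofNat 0, Int.ofNat 0, Int.negSucc 12268878839999, Int.ofNat 16169747040000, Int.ofNat 0, Int.ofNat 0, Int.ofNat 0, Int.ofNat 0, Int.ofNat 0, Int.ofNat 0],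
  [Int.ofNat 0, Int.negSucc 222986587499, Int.ofNat 409270320000, Int.negSucc 170295682499, Int.ofNat 0, Int.ofNat 0, Int.negSucc 401932799999, Int.ofNat 764578305000, Int.negSucc 3752372384999, Int.ofNat 2031895530000, Int.ofNat 0, Int.ofNat 8411449320000, Int.negSucc 4063791059999, Int.ofNat 0, Int.ofNat 0, Int.ofNat 11092808756250, Int.negSucc 16073110462499, Int.ofNat 4427265701250, Int.ofNat 0, Int.negSucc 9959411699999, Int.ofNat 0, Int.negSucc 317964740624, Int.negSucc 152327756249, Int.negSucc 755013521249, Int.ofNat 3325943733750, Int.negSucc 2213632850624, Int.ofNat 0, Int.negSucc 3087663299999, Int.negSucc 4960565549999, Int.ofNat 13107287970000, Int.ofNat 0, Int.negSucc 11375797139999, Int.ofNat 0, Int.ofNat 0, Int.ofNat 0],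
  [Int.ofNat 0, Int.ofNat 0, Int.negSucc 6987262499, Int.ofNat 9782167500, Int.negSucc 2794904999, Int.ofNat 0, Int.ofNat 0, Int.ofNat 20961787500, Int.ofNat 58693005000, Int.negSucc 211015327499, Int.ofNat 117386010000, Int.negSucc 176079014999, Int.ofNat 670777200000, Int.negSucc 352158029999, Int.ofNat 1140321240000, Int.negSucc 37731217499, Int.ofNat 750431992500, Int.negSucc 1584711134999, Int.ofNat 528237045000, Int.ofNat 1266091965000, Int.negSucc 2565722789999, Int.ofNat 0, Int.ofNat 0, Int.ofNat 18865608750, Int.negSucc 127168177499, Int.ofNat 303945918750, Int.negSucc 176079014999, Int.negSucc 20961787499, Int.negSucc 121578367499, Int.negSucc 855240929999, Int.ofNat 1207398960000, Int.negSucc 1488286912499, Int.ofNat 968434582500, Int.negSucc 528237044999, Int.ofNat 1509248700000],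
  [Int.ofNat 0, Int.negSucc 749760132047, Int.negSucc 1255369141151, Int.ofNat 874066988268, Int.negSucc 205353872627, Int.ofNat 0, Int.negSucc 2397178632047, Int.ofNat 13323133662216, Int.negSucc 5636746508741, Int.ofNat 2156215662594, Int.ofNat 0, Int.negSucc 10268017284335, Int.ofNat 0, Int.ofNat 0, Int.ofNat 0, Int.negSucc 54828041280959, Int.ofNat 29954497083672, Int.ofNat 0, Int.ofNat 0, Int.ofNat 0, Int.ofNat 0, Int.negSucc 1647418499999, Int.ofNat 8410917828192, Int.ofNat 4673392200000, Int.negSucc 4545738294095, Int.ofNat 0, Int.ofNat 0, Int.negSucc 15154800916679, Int.ofNat 32004759047970, Int.negSucc 23718372288533, Int.ofNat 0, Int.ofNat 61567142175000, Int.ofNat 0, Int.ofNat 0, Int.ofNat 0],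
  [Int.ofNat 0, Int.ofNat 0, Int.ofNat 94318728750, Int.negSucc 343840443749, Int.ofNat 288777352500, Int.negSucc 82308554999, Int.ofNat 0, Int.negSucc 1880371816874, Int.ofNat 2321207026875, Int.negSucc 1560555618749, Int.ofNat 617314162500, Int.ofNat 5413327605000, Int.negSucc 5687710649999, Int.ofNat 2140022430000, Int.negSucc 4870546199999, Int.ofNat 7019758890000, Int.negSucc 3502907471249, Int.ofNat 3011493431250, Int.ofNat 0, Int.negSucc 56277778994999, Int.ofNat 0, Int.ofNat 0, Int.negSucc 1820803859999, Int.ofNat 1900123110000, Int.negSucc 1430596687499, Int.negSucc 208175062499, Int.ofNat 0, Int.ofNat 2516804915625, Int.ofNat 3438603444375, Int.ofNat 26515752266250, Int.negSucc 15021311287499, Int.negSucc 102035986436249, Int.ofNat 106366924406250, Int.ofNat 0, Int.ofNat 0],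
  [Int.ofNat 0, Int.ofNat 0, Int.negSucc 20961787499, Int.ofNat 29346502500, Int.negSucc 8384714999, Int.ofNat 0, Int.ofNat 0, Int.ofNat 220098768750, Int.negSucc 157213406249, Int.negSucc 633045982499, Int.ofNat 352158030000, Int.negSucc 1308015539999, Int.ofNat 4506784312500, Int.negSucc 2289027194999, Int.negSucc 3270038849999, Int.negSucc 1844637299999, Int.ofNat 6722445251250, Int.negSucc 5590508726249, Int.ofNat 3433540792500, Int.negSucc 42011614507499, Int.ofNat 15369182595000, Int.ofNat 0, Int.ofNat 0, Int.ofNat 503082900000, Int.negSucc 1488286912499, Int.ofNat 1219976032500, Int.negSucc 528237044999, Int.negSucc 2421086456249, Int.ofNat 6760176468750, Int.ofNat 3098152192500, Int.negSucc 1308015539999, Int.negSucc 6835638903749, Int.ofNat 19940948448750, Int.negSucc 19456731157499, Int.ofNat 55590660450000]],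
  true, 6383852471797678080000, 1⟩

end

end Vale.Agent.P154q4.D4
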