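import Vale.Agent.P154q4.TM

namespace Vale.Agent.P154q4.D4

noncomputable section

open Vale.Agent.P154q4.TMC MT in
/-- Data of one sign branch. -/
def DIpp : Data :=
  ⟨true, true, 42,
   (p (p (p (p (p nil nil) nil) nil) (e (p (p (p (p nil nil) (e (p (p nil (t nil nil)) nil) nil)) (t (p (p (p nil nil) (t (p nil nil) nil)) nil) nil)) nil) nil)) (t (p (p (p (p (p nil nil) nil) nil) (t (p (p (p nil nil) (t (p (p nil (t nil nil)) nil) nil)) nil) nil)) nil) nil)),
   (p (p (p nil nil) (e (p (p (e nil nil) (t (p nil nil) nil)) nil) nil)) (t (p (p (p nil nil) (t (p (t nil nil) nil) nil)) nil) nil)),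
  [[Int.ofNat 398131200000, Int.ofNat 126959616000, Int.negSucc 185794559999, Int.ofNat 0, Int.ofNat 0, Int.ofNat 0, Int.negSucc 1911029759999, Int.ofNat 0, Int.ofNat 0, Int.ofNat 0, Int.ofNat 0, Int.ofNat 0, Int.ofNat 0, Int.ofNat 0, Int.ofNat 0, Int.ofNat 0, Int.ofNat 0, Int.ofNat 0, Int.ofNat 0, Int.ofNat 0, Int.ofNat 0, Int.negSucc 1167851519999, Int.ofNat 3291217920000, Int.ofNat 0, Int.ofNat 0, Int.ofNat 0, Int.ofNat 0, Int.ofNat 0, Int.ofNat 0, Int.ofNat 0, Int.ofNat 0, Int.ofNat 0, Int.ofNat 0, Int.ofNat 0, Int.ofNat 0],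
  [Int.negSucc 4472340479, Int.negSucc 270539246375, Int.ofNat 312033613392, Int.negSucc 117997488935, Int.ofNat 0, Int.ofNat 0, Int.ofNat 1091531553120, Int.negSucc 1165619584655, Int.ofNat 235994977872, Int.ofNat 0, Int.ofNat 0, Int.ofNat 0, Int.ofNat 0, Int.ofNat 0, Int.ofNat 0, Int.negSucc 876020399999, Int.ofNat 0, Int.ofNat 0, Int.ofNat 0, Int.ofNat 0, Int.ofNat 0, Int.ofNat 26542080000, Int.negSucc 451073422079, Int.ofNat 1064828955744, Int.ofNat 0, Int.ofNat 0, Int.ofNat 0, Int.negSucc 1170466199999, Int.ofNat 0, Int.ofNat 0, Int.ofNat 0, Int.ofNat 0, Int.ofNat 0, Int.ofNat 0, Int.ofNat 0],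
  [Int.negSucc 21340205875, Int.ofNat 117393961004, Int.negSucc 239218595255, Int.ofNat 211616131004, Int.negSucc 68451290875, Int.ofNat 0, Int.negSucc 320148745511, Int.ofNat 854213159144, Int.negSucc 863550974763, Int.ofNat 205353872628, Int.ofNat 0, Int.ofNat 297926100000, Int.ofNat 0, Int.ofNat 0, Int.ofNat 0, Int.ofNat 1802848152048, Int.negSucc 1379513374015, Int.ofNat 0, Int.ofNat 0, Int.ofNat 0, Int.ofNat 0, Int.ofNat 0, Int.ofNat 143264672008, Int.negSucc 666636154015, Int.ofNat 600915212008, Int.ofNat 0, Int.ofNat 0, Int.negSucc 1255369141151, Int.ofNat 385113784252, Int.negSucc 205353872627, Int.ofNat 0, Int.ofNat 533048850000, Int.ofNat 0, Int.ofNat 0, Int.ofNat 0],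
  [Int.ofNat 0, Int.negSucc 5221361249, Int.ofNat 35205738750, Int.negSucc 75324532499, Int.ofNat 65917293750, Int.negSucc 20577138749, Int.ofNat 10442722500, Int.negSucc 116059938749, Int.ofNat 354283166250, Int.negSucc 333637177499, Int.ofNat 82308555000, Int.negSucc 267061859999, Int.ofNat 316630417500, Int.negSucc 41154277499, Int.ofNat 93664350000, Int.negSucc 58992704999, Int.ofNat 678924787500, Int.negSucc 582832462499, Int.ofNat 0, Int.ofNat 177431715000, Int.ofNat 0, Int.ofNat 0, Int.ofNat 0, Int.ofNat 29496352500, Int.negSucc 202837769999, Int.ofNat 178666762500, Int.ofNat 0, Int.ofNat 136945383750, Int.negSucc 343840443749, Int.ofNat 132771757500, Int.negSucc 82308554999, Int.negSucc 819747742499, Int.ofNat 582832462500, Int.ofNat 0, Int.ofNat 0],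
  [Int.negSucc 477757439999, Int.ofNat 1091531553120, Int.negSucc 814630384655, Int.ofNat 235994977872, Int.ofNat 0, Int.ofNat 0, Int.negSucc 1481277961439, Int.ofNat 2218765491792, Int.negSucc 1179974889359, Int.ofNat 0, Int.ofNat 0, Int.ofNat 0, Int.ofNat 0, Int.ofNat 0, Int.ofNat 0, Int.ofNat 4380102000000, Int.ofNat 0, Int.ofNat 0, Int.ofNat 0, Int.ofNat 0, Int.ofNat 0, Int.ofNat 3408736452480, Int.negSucc 4306293422783, Int.ofNat 1631254622976, Int.ofNat 0, Int.ofNat 0, Int.ofNat 0, Int.negSucc 7488271799999, Int.ofNat 0, Int.ofNat 0, Int.ofNat 0, Int.ofNat 0, Int.ofNat 0, Int.ofNat 0, Int.ofNat 0],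
  [Int.ofNat 0, Int.negSucc 411671995511, Int.ofNat 854213159144, Int.negSucc 714587924763, Int.ofNat 205353872628, Int.ofNat 0, Int.ofNat 826333889528, Int.negSucc 2744560906255, Int.ofNat 3127580261930, Int.negSucc 1129446299453, Int.ofNat 0, Int.negSucc 1000677295983, Int.ofNat 0, Int.ofNat 0, Int.ofNat 0, Int.negSucc 3988420168111, Int.ofNat 5471162247048, Int.ofNat 0, Int.ofNat 0, Int.ofNat 0, Int.ofNat 0, Int.negSucc 1024329882047, Int.ofNat 1908004782048, Int.negSucc 1200377284015, Int.ofNat 313415674016, Int.ofNat 0, Int.ofNat 0, Int.ofNat 13323133662216, Int.negSucc 13291741556933, Int.ofNat 2156215662594, Int.ofNat 0, Int.negSucc 5597012924999, Int.ofNat 0, Int.ofNat 0, Int.ofNat 0],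
  [Int.ofNat 0, Int.ofNat 10442722500, Int.negSucc 156975063749, Int.ofNat 354283166250, Int.negSucc 288777352499, Int.ofNat 82308555000, Int.negSucc 52213612499, Int.ofNat 543917278125, Int.negSucc 1954099535624, Int.ofNat 1937178281250, Int.negSucc 617314162499, Int.ofNat 2525062005000, Int.negSucc 2911340474999, Int.ofNat 740776995000, Int.negSucc 1685958299999, Int.negSucc 2194630604999, Int.ofNat 1205626983750, Int.ofNat 1602717131250, Int.ofNat 0, Int.ofNat 2794029795000, Int.ofNat 0, Int.ofNat 0, Int.negSucc 167083559999, Int.ofNat 1077713505000, Int.negSucc 999875137499, Int.ofNat 208175062500, Int.ofNat 0, Int.negSucc 877870456874, Int.ofNat 2321207026875, Int.negSucc 3481497753749, Int.ofNat 617314162500, Int.ofNat 4494714198750, Int.negSucc 4371243468749, Int.ofNat 0, Int.ofNat 0],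
  [Int.ofNat 0, Int.ofNat 0, Int.ofNat 81830250000, Int.negSucc 267061859999, Int.ofNat 182050942500, Int.negSucc 41154277499, Int.ofNat 0, Int.negSucc 366524594999, Int.ofNat 2525062005000, Int.negSucc 2249156159999, Int.ofNat 740776995000, Int.negSucc 6213293729999, Int.ofNat 6715933357500, Int.negSucc 2675028037499, Int.ofNat 6088182750000, Int.ofNat 8250342480000, Int.negSucc 15240721454999, Int.ofNat 4905771075000, Int.ofNat 0, Int.negSucc 4205435354999, Int.ofNat 0, Int.ofNat 0, Int.ofNat 0, Int.negSucc 2371608719999, Int.ofNat 3920891670000, Int.negSucc 1488350699999, Int.ofNat 0, Int.negSucc 895159754999, Int.ofNat 5413327605000, Int.negSucc 4315799474999, Int.ofNat 2140022430000, Int.ofNat 18744100245000, Int.negSucc 15153644024999, Int.ofNat 0, Int.ofNat 0],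
  [Int.ofNat 0, Int.negSucc 163337849999, Int.ofNat 1101175965000, Int.negSucc 340591364999, Int.ofNat 0, Int.ofNat 0, Int.ofNat 816689250000, Int.negSucc 2411581544999, Int.negSucc 7389675224999, Int.ofNat 4063791060000, Int.ofNat 0, Int.ofNat 28724797800000, Int.negSucc 14900567219999, Int.ofNat 0, Int.ofNat 0, Int.ofNat 10576867916250, Int.negSucc 22245399562499, Int.ofNat 16233307571250, Int.ofNat 0, Int.negSucc 36517842899999, Int.ofNat 0, Int.ofNat 0, Int.ofNat 5263597350000, Int.negSucc 11092808756249, Int.ofNat 9294518542500, Int.negSucc 4427265701249, Int.ofNat 0, Int.negSucc 34455648779999, Int.ofNat 28266636690000, Int.negSucc 877364459999, Int.ofNat 0, Int.ofNat 21711889620000, Int.ofNat 0, Int.ofNat 0, Int.ofNat 0],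
  [Int.ofNat 0, Int.ofNat 0, Int.negSucc 20961787499, Int.ofNat 29346502500, Int.negSucc 8384714999, Int.ofNat 0, Int.ofNat 0, Int.ofNat 115289831250, Int.ofNat 64981541250, Int.negSucc 633045982499, Int.ofNat 352158030000, Int.negSucc 746239634999, Int.ofNat 2745994162500, Int.negSucc 1467325124999, Int.ofNat 3929636430000, Int.negSucc 194245897499, Int.ofNat 2008837968750, Int.negSucc 4690549316249, Int.ofNat 2200987687500, Int.ofNat 1049486827500, Int.negSucc 8225405414999, Int.ofNat 0, Int.ofNat 0, Int.ofNat 205425517500, Int.negSucc 750431992499, Int.ofNat 1014550515000, Int.negSucc 528237044999, Int.negSucc 220098768749, Int.negSucc 714796953749, Int.negSucc 482121112499, Int.ofNat 1978792740000, Int.negSucc 6722445251249, Int.ofNat 8877317006250, Int.negSucc 3433540792499, Int.ofNat 9810116550000],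
  [Int.negSucc 530841599999, Int.negSucc 207028223999, Int.ofNat 0, Int.ofNat 0, Int.ofNat 0, Int.ofNat 0, Int.ofNat 6900940800000, Int.negSucc 4459069439999, Int.ofNat 0, Int.ofNat 0, Int.ofNat 0, Int.ofNat 0, Int.ofNat 0, Int.ofNat 0, Int.ofNat 0, Int.ofNat 0, Int.ofNat 0, Int.ofNat 0, Int.ofNat 0, Int.ofNat 0, Int.ofNat 0, Int.negSucc 7537950719999, Int.ofNat 5812715520000, Int.ofNat 2786918400000, Int.ofNat 0, Int.ofNat 0, Int.ofNat 0, Int.negSucc 12740198399999, Int.ofNat 0, Int.ofNat 0, Int.ofNat 0, Int.ofNat 0, Int.ofNat 0, Int.ofNat 0, Int.ofNat 0],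
  [Int.ofNat 405467640000, Int.negSucc 222913619999, Int.ofNat 129979350000, Int.ofNat 0, Int.ofNat 0, Int.ofNat 0, Int.negSucc 2099534039999, Int.ofNat 2718059760000, Int.negSucc 1818096839999, Int.ofNat 0, Int.ofNat 0, Int.ofNat 0, Int.ofNat 0, Int.ofNat 0, Int.ofNat 0, Int.ofNat 11943207000000, Int.ofNat 0, Int.ofNat 0, Int.ofNat 0, Int.ofNat 0, Int.ofNat 0, Int.ofNat 1419351660000, Int.negSucc 6410647394999, Int.ofNat 368722125000, Int.ofNat 1596662550000, Int.ofNat 0, Int.ofNat 0, Int.ofNat 12268878840000, Int.negSucc 16169747039999, Int.ofNat 0, Int.ofNat 0, Int.ofNat 0, Int.ofNat 0, Int.ofNat 0, Int.ofNat 0],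
  [Int.ofNat 0, Int.ofNat 222986587500, Int.negSucc 409270319999, Int.ofNat 170295682500, Int.ofNat 0, Int.ofNat 0, Int.ofNat 401932800000, Int.negSucc 764578304999, Int.ofNat 3752372385000, Int.negSucc 2031895529999, Int.ofNat 0, Int.negSucc 8411449319999, Int.ofNat 4063791060000, Int.ofNat 0, Int.ofNat 0, Int.negSucc 11092808756249, Int.ofNat 16073110462500, Int.negSucc 4427265701249, Int.ofNat 0, Int.ofNat 9959411700000, Int.ofNat 0, Int.ofNat 317964740625, Int.ofNat 152327756250, Int.ofNat 755013521250, Int.negSucc 3325943733749, Int.ofNat 2213632850625, Int.ofNat 0, Int.ofNat 3087663300000, Int.ofNat 4960565550000, Int.negSucc 13107287969999, Int.ofNat 0, Int.ofNat 11375797140000, Int.ofNat 0, Int.ofNat 0, Int.ofNat 0],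
  [Int.ofNat 0, Int.ofNat 0, Int.ofNat 6987262500, Int.negSucc 9782167499, Int.ofNat 2794905000, Int.ofNat 0, Int.ofNat 0, Int.negSucc 20961787499, Int.negSucc 58693004999, Int.ofNat 211015327500, Int.negSucc 117386009999, Int.ofNat 176079015000, Int.negSucc 670777199999, Int.ofNat 352158030000, Int.negSucc 1140321239999, Int.ofNat 37731217500, Int.negSucc 750431992499, Int.ofNat 1584711135000, Int.negSucc 528237044999, Int.negSucc 1266091964999, Int.ofNat 2565722790000, Int.ofNat 0, Int.ofNat 0, Int.negSucc 18865608749, Int.ofNat 127168177500, Int.negSucc 303945918749, Int.ofNat 176079015000, Int.ofNat 20961787500, Int.ofNat 121578367500, Int.ofNat 855240930000, Int.negSucc 1207398959999, Int.ofNat 1488286912500, Int.negSucc 968434582499, Int.ofNat 528237045000, Int.negSucc 1509248699999],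
  [Int.ofNat 0, Int.negSucc 749760132047, Int.negSucc 1255369141151, Int.ofNat 874066988268, Int.negSucc 205353872627, Int.ofNat 0, Int.negSucc 2397178632047, Int.ofNat 13323133662216, Int.negSucc 5636746508741, Int.ofNat 2156215662594, Int.ofNat 0, Int.negSucc 10268017284335, Int.ofNat 0, Int.ofNat 0, Int.ofNat 0, Int.negSucc 54828041280959, Int.ofNat 29954497083672, Int.ofNat 0, Int.ofNat 0, Int.ofNat 0, Int.ofNat 0, Int.negSucc 1647418499999, Int.ofNat 8410917828192, Int.ofNat 4673392200000, Int.negSucc 4545738294095, Int.ofNat 0, Int.ofNat 0, Int.negSucc 15154800916679, Int.ofNat 32004759047970, Int.negSucc 23718372288533, Int.ofNat 0, Int.ofNat 61567142175000, Int.ofNat 0, Int.ofNat 0, Int.ofNat 0],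
  [Int.ofNat 0, Int.ofNat 0, Int.ofNat 94318728750, Int.negSucc 343840443749, Int.ofNat 288777352500, Int.negSucc 82308554999, Int.ofNat 0, Int.negSucc 1880371816874, Int.ofNat 2321207026875, Int.negSucc 1560555618749, Int.ofNat 617314162500, Int.ofNat 5413327605000, Int.negSucc 5687710649999, Int.ofNat 2140022430000, Int.negSucc 4870546199999, Int.ofNat 7019758890000, Int.negSucc 3502907471249, Int.ofNat 3011493431250, Int.ofNat 0, Int.negSucc 56277778994999, Int.ofNat 0, Int.ofNat 0, Int.negSucc 1820803859999, Int.ofNat 1900123110000, Int.negSucc 1430596687499, Int.negSucc 208175062499, Int.ofNat 0, Int.ofNat 2516804915625, Int.ofNat 3438603444375, Int.ofNat 26515752266250, Int.negSucc 15021311287499, Int.negSucc 102035986436249, Int.ofNat 106366924406250, Int.ofNat 0, Int.ofNat 0],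
  [Int.ofNat 0, Int.ofNat 0, Int.ofNat 20961787500, Int.negSucc 29346502499, Int.ofNat 8384715000, Int.ofNat 0, Int.ofNat 0, Int.negSucc 220098768749, Int.ofNat 157213406250, Int.ofNat 633045982500, Int.negSucc 352158029999, Int.ofNat 1308015540000, Int.negSucc 4506784312499, Int.ofNat 2289027195000, Int.ofNat 3270038850000, Int.ofNat 1844637300000, Int.negSucc 6722445251249, Int.ofNat 5590508726250, Int.negSucc 3433540792499, Int.ofNat 42011614507500, Int.negSucc 15369182594999, Int.ofNat 0, Int.ofNat 0, Int.negSucc 503082899999, Int.ofNat 1488286912500, Int.negSucc 1219976032499, Int.ofNat 528237045000, Int.ofNat 2421086456250, Int.negSucc 6760176468749, Int.negSucc 3098152192499, Int.ofNat 1308015540000, Int.ofNat 6835638903750, Int.negSucc 19940948448749, Int.ofNat 19456731157500, Int.negSucc 55590660449999]],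
  true, 6383852471797678080000, 1⟩

end

end Vale.Agent.P154q4.D4
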