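import Vale.Agent.P154q4.TM

namespace Vale.Agent.P154q4.D4

noncomputable section

open Vale.Agent.P154q4.TMC MT in
/-- Data of one sign branch. -/
def DMnp : Data :=
  ⟨false, true, 32,
   (p (p (p (p nil nil) nil) (e (p (p (p nil (e (p nil nil) nil)) (t (p nil nil) nil)) nil) nil)) (t (p (p (p nil nil) (t (p (p nil (t nil nil)) nil) nil)) nil) nil)),
   (p (p nil nil) (t (p nil (t (p nil nil) nil)) (e (p (p (e nil nil) (t nil nil)) nil) nil))),
  [[Int.ofNat 90031592, Int.ofNat 129594416, Int.negSucc 82000407, Int.ofNat 0, Int.ofNat 0, Int.negSucc 836066447, Int.ofNat 164000816, Int.ofNat 0, Int.ofNat 0, Int.ofNat 0, Int.ofNat 0, Int.ofNat 0, Int.ofNat 0, Int.negSucc 135167999, Int.negSucc 586049631, Int.ofNat 0, Int.ofNat 0, Int.ofNat 0, Int.ofNat 0, Int.ofNat 0, Int.ofNat 0],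
  [Int.ofNat 0, Int.negSucc 26592499, Int.ofNat 53185000, Int.negSucc 26592499, Int.ofNat 0, Int.ofNat 53185000, Int.negSucc 186147499, Int.ofNat 79777500, Int.ofNat 0, Int.ofNat 0, Int.ofNat 0, Int.ofNat 212740000, Int.ofNat 0, Int.ofNat 0, Int.ofNat 0, Int.negSucc 106369999, Int.ofNat 0, Int.ofNat 239332500, Int.negSucc 79777499, Int.ofNat 0, Int.ofNat 0],
  [Int.ofNat 0, Int.ofNat 0, Int.negSucc 1826249, Int.ofNat 3652500, Int.negSucc 1826249, Int.ofNat 0, Int.ofNat 5478750, Int.negSucc 16436249, Int.ofNat 7305000, Int.ofNat 10957500, Int.negSucc 3652499, Int.ofNat 0, Int.ofNat 21915000, Int.ofNat 0, Int.ofNat 0, Int.ofNat 0, Int.negSucc 7304999, Int.negSucc 5478749, Int.ofNat 16436250, Int.negSucc 7304999, Int.negSucc 21914999],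
  [Int.ofNat 0, Int.ofNat 168250000, Int.ofNat 0, Int.ofNat 0, Int.ofNat 0, Int.ofNat 673000000, Int.negSucc 672999999, Int.ofNat 0, Int.ofNat 0, Int.ofNat 0, Int.ofNat 0, Int.ofNat 0, Int.ofNat 0, Int.negSucc 757124999, Int.ofNat 588875000, Int.negSucc 841249999, Int.ofNat 0, Int.negSucc 4037999999, Int.ofNat 0, Int.ofNat 0, Int.ofNat 0],
  [Int.ofNat 0, Int.ofNat 0, Int.ofNat 45550000, Int.ofNat 0, Int.ofNat 0, Int.ofNat 0, Int.ofNat 91100000, Int.negSucc 273299999, Int.ofNat 0, Int.ofNat 546600000, Int.ofNat 0, Int.negSucc 1867549999, Int.ofNat 956550000, Int.ofNat 0, Int.negSucc 227749999, Int.ofNat 706025000, Int.negSucc 478274999, Int.negSucc 546599999, Int.negSucc 1093199999, Int.ofNat 0, Int.ofNat 0],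
  [Int.ofNat 0, Int.ofNat 0, Int.ofNat 239332500, Int.negSucc 79777499, Int.ofNat 0, Int.ofNat 0, Int.negSucc 1874771249, Int.ofNat 837663750, Int.ofNat 0, Int.ofNat 0, Int.ofNat 0, Int.negSucc 8935079999, Int.ofNat 0, Int.ofNat 0, Int.ofNat 2552880000, Int.ofNat 1276440000, Int.ofNat 0, Int.ofNat 14240283750, Int.negSucc 9214301249, Int.ofNat 0, Int.ofNat 0],
  [Int.ofNat 0, Int.ofNat 0, Int.negSucc 5478749, Int.ofNat 16436250, Int.negSucc 7304999, Int.ofNat 0, Int.ofNat 57526875, Int.negSucc 84920624, Int.ofNat 54787500, Int.negSucc 321419999, Int.ofNat 189930000, Int.ofNat 233760000, Int.negSucc 244717499, Int.ofNat 0, Int.ofNat 0, Int.ofNat 175320000, Int.ofNat 21915000, Int.negSucc 632795624, Int.ofNat 1664626875, Int.negSucc 1333162499, Int.negSucc 3999487499],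
  [Int.ofNat 0, Int.negSucc 492002447, Int.ofNat 164000816, Int.ofNat 0, Int.ofNat 0, Int.ofNat 1804008976, Int.negSucc 820004079, Int.ofNat 0, Int.ofNat 0, Int.ofNat 0, Int.ofNat 0, Int.ofNat 0, Int.ofNat 0, Int.ofNat 1968009792, Int.negSucc 1312006527, Int.ofNat 0, Int.ofNat 0, Int.ofNat 0, Int.ofNat 0, Int.ofNat 0, Int.ofNat 0],
  [Int.ofNat 0, Int.ofNat 53185000, Int.negSucc 186147499, Int.ofNat 79777500, Int.ofNat 0, Int.negSucc 265924999, Int.ofNat 837663750, Int.negSucc 438776249, Int.ofNat 0, Int.ofNat 0, Int.ofNat 0, Int.negSucc 638219999, Int.ofNat 0, Int.ofNat 0, Int.ofNat 425480000, Int.negSucc 212739999, Int.ofNat 0, Int.negSucc 1874771249, Int.ofNat 837663750, Int.ofNat 0, Int.ofNat 0],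
  [Int.ofNat 0, Int.ofNat 0, Int.ofNat 5478750, Int.negSucc 16436249, Int.ofNat 7305000, Int.ofNat 0, Int.negSucc 30133124, Int.ofNat 112314375, Int.negSucc 54787499, Int.negSucc 153404999, Int.ofNat 65745000, Int.negSucc 87659999, Int.negSucc 10957499, Int.ofNat 0, Int.ofNat 0, Int.ofNat 43830000, Int.negSucc 21914999, Int.ofNat 57526875, Int.negSucc 84920624, Int.ofNat 54787500, Int.ofNat 164362500],
  [Int.ofNat 0, Int.ofNat 0, Int.ofNat 0, Int.ofNat 10957500, Int.negSucc 3652499, Int.ofNat 0, Int.ofNat 0, Int.negSucc 153404999, Int.ofNat 65745000, Int.ofNat 478477500, Int.negSucc 237412499, Int.ofNat 321420000, Int.negSucc 365249999, Int.ofNat 0, Int.ofNat 0, Int.negSucc 87659999, Int.ofNat 87660000, Int.ofNat 0, Int.negSucc 321419999, Int.ofNat 189930000, Int.ofNat 569790000],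
  [Int.ofNat 0, Int.ofNat 0, Int.negSucc 91099999, Int.ofNat 0, Int.ofNat 0, Int.ofNat 0, Int.ofNat 273300000, Int.ofNat 546600000, Int.ofNat 0, Int.negSucc 2004199999, Int.ofNat 0, Int.ofNat 6240350000, Int.negSucc 3507349999, Int.ofNat 0, Int.ofNat 0, Int.negSucc 1867549999, Int.ofNat 956550000, Int.ofNat 3826200000, Int.negSucc 1457599999, Int.ofNat 0, Int.ofNat 0]],
  false, 4565569158243114024960, 1⟩

end

end Vale.Agent.P154q4.D4
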