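import Vale.Agent.P154q4.TM

namespace Vale.Agent.P154q4.D4

noncomputable section

open Vale.Agent.P154q4.TMC MT in
/-- Data of one sign branch. -/
def DMpp : Data :=
  ⟨true, true, 32,
   (p (p (p (p nil nil) nil) (e (p (p (p nil (e (p nil nil) nil)) (t (p nil nil) nil)) nil) nil)) (t (p (p (p nil nil) (t (p (p nil (t nil nil)) nil) nil)) nil) nil)),
   (p (p nil nil) (t (p nil (t (p nil nil) nil)) (e (p (p (e nil nil) (t nil nil)) nil) nil))),
  [[Int.ofNat 90031592, Int.ofNat 129594416, Int.negSucc 82000407, Int.ofNat 0, Int.ofNat 0, Int.negSucc 836066447, Int.ofNat 164000816, Int.ofNat 0, Int.ofNat 0, Int.ofNat 0, Int.ofNat 0, Int.ofNat 0, Int.ofNat 0, Int.ofNat 135168000, Int.ofNat 586049632, Int.ofNat 0, Int.ofNat 0, Int.ofNat 0, Int.ofNat 0, Int.ofNat 0, Int.ofNat 0],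
  [Int.ofNat 0, Int.negSucc 26592499, Int.ofNat 53185000, Int.negSucc 26592499, Int.ofNat 0, Int.ofNat 53185000, Int.negSucc 186147499, Int.ofNat 79777500, Int.ofNat 0, Int.ofNat 0, Int.ofNat 0, Int.negSucc 212739999, Int.ofNat 0, Int.ofNat 0, Int.ofNat 0, Int.ofNat 106370000, Int.ofNat 0, Int.ofNat 239332500, Int.negSucc 79777499, Int.ofNat 0, Int.ofNat 0],
  [Int.ofNat 0, Int.ofNat 0, Int.negSucc 1826249, Int.ofNat 3652500, Int.negSucc 1826249, Int.ofNat 0, Int.ofNat 5478750, Int.negSucc 16436249, Int.ofNat 7305000, Int.ofNat 10957500, Int.negSucc 3652499, Int.ofNat 0, Int.negSucc 21914999, Int.ofNat 0, Int.ofNat 0, Int.ofNat 0, Int.ofNat 7305000, Int.negSucc 5478749, Int.ofNat 16436250, Int.negSucc 7304999, Int.ofNat 21915000],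
  [Int.ofNat 0, Int.ofNat 168250000, Int.ofNat 0, Int.ofNat 0, Int.ofNat 0, Int.ofNat 673000000, Int.negSucc 672999999, Int.ofNat 0, Int.ofNat 0, Int.ofNat 0, Int.ofNat 0, Int.ofNat 0, Int.ofNat 0, Int.ofNat 757125000, Int.negSucc 588874999, Int.ofNat 841250000, Int.ofNat 0, Int.negSucc 4037999999, Int.ofNat 0, Int.ofNat 0, Int.ofNat 0],
  [Int.ofNat 0, Int.ofNat 0, Int.ofNat 45550000, Int.ofNat 0, Int.ofNat 0, Int.ofNat 0, Int.ofNat 91100000, Int.negSucc 273299999, Int.ofNat 0, Int.ofNat 546600000, Int.ofNat 0, Int.ofNat 1867550000, Int.negSucc 956549999, Int.ofNat 0, Int.ofNat 227750000, Int.negSucc 706024999, Int.ofNat 478275000, Int.negSucc 546599999, Int.negSucc 1093199999, Int.ofNat 0, Int.ofNat 0],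
  [Int.ofNat 0, Int.ofNat 0, Int.ofNat 239332500, Int.negSucc 79777499, Int.ofNat 0, Int.ofNat 0, Int.negSucc 1874771249, Int.ofNat 837663750, Int.ofNat 0, Int.ofNat 0, Int.ofNat 0, Int.ofNat 8935080000, Int.ofNat 0, Int.ofNat 0, Int.negSucc 2552879999, Int.negSucc 1276439999, Int.ofNat 0, Int.ofNat 14240283750, Int.negSucc 9214301249, Int.ofNat 0, Int.ofNat 0],
  [Int.ofNat 0, Int.ofNat 0, Int.negSucc 5478749, Int.ofNat 16436250, Int.negSucc 7304999, Int.ofNat 0, Int.ofNat 57526875, Int.negSucc 84920624, Int.ofNat 54787500, Int.negSucc 321419999, Int.ofNat 189930000, Int.negSucc 233759999, Int.ofNat 244717500, Int.ofNat 0, Int.ofNat 0, Int.negSucc 175319999, Int.negSucc 21914999, Int.negSucc 632795624, Int.ofNat 1664626875, Int.negSucc 1333162499, Int.ofNat 3999487500],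
  [Int.ofNat 0, Int.negSucc 492002447, Int.ofNat 164000816, Int.ofNat 0, Int.ofNat 0, Int.ofNat 1804008976, Int.negSucc 820004079, Int.ofNat 0, Int.ofNat 0, Int.ofNat 0, Int.ofNat 0, Int.ofNat 0, Int.ofNat 0, Int.negSucc 1968009791, Int.ofNat 1312006528, Int.ofNat 0, Int.ofNat 0, Int.ofNat 0, Int.ofNat 0, Int.ofNat 0, Int.ofNat 0],
  [Int.ofNat 0, Int.ofNat 53185000, Int.negSucc 186147499, Int.ofNat 79777500, Int.ofNat 0, Int.negSucc 265924999, Int.ofNat 837663750, Int.negSucc 438776249, Int.ofNat 0, Int.ofNat 0, Int.ofNat 0, Int.ofNat 638220000, Int.ofNat 0, Int.ofNat 0, Int.negSucc 425479999, Int.ofNat 212740000, Int.ofNat 0, Int.negSucc 1874771249, Int.ofNat 837663750, Int.ofNat 0, Int.ofNat 0],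
  [Int.ofNat 0, Int.ofNat 0, Int.ofNat 5478750, Int.negSucc 16436249, Int.ofNat 7305000, Int.ofNat 0, Int.negSucc 30133124, Int.ofNat 112314375, Int.negSucc 54787499, Int.negSucc 153404999, Int.ofNat 65745000, Int.ofNat 87660000, Int.ofNat 10957500, Int.ofNat 0, Int.ofNat 0, Int.negSucc 43829999, Int.ofNat 21915000, Int.ofNat 57526875, Int.negSucc 84920624, Int.ofNat 54787500, Int.negSucc 164362499],
  [Int.ofNat 0, Int.ofNat 0, Int.ofNat 0, Int.ofNat 10957500, Int.negSucc 3652499, Int.ofNat 0, Int.ofNat 0, Int.negSucc 153404999, Int.ofNat 65745000, Int.ofNat 478477500, Int.negSucc 237412499, Int.negSucc 321419999, Int.ofNat 365250000, Int.ofNat 0, Int.ofNat 0, Int.ofNat 87660000, Int.negSucc 87659999, Int.ofNat 0, Int.negSucc 321419999, Int.ofNat 189930000, Int.negSucc 569789999],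
  [Int.ofNat 0, Int.ofNat 0, Int.negSucc 91099999, Int.ofNat 0, Int.ofNat 0, Int.ofNat 0, Int.ofNat 273300000, Int.ofNat 546600000, Int.ofNat 0, Int.negSucc 2004199999, Int.ofNat 0, Int.negSucc 6240349999, Int.ofNat 3507350000, Int.ofNat 0, Int.ofNat 0, Int.ofNat 1867550000, Int.negSucc 956549999, Int.ofNat 3826200000, Int.negSucc 1457599999, Int.ofNat 0, Int.ofNat 0]],
  false, 4565569158243114024960, 1⟩

end

end Vale.Agent.P154q4.D4
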